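import Vale.Agent.P339.Final

/-!
An explicit clause by clause reduction from Max-NTW (Not-Two) to 2-to-1 games with perfect
completeness, losing `(6 m - 1) / (30 m)` of the constraints per violated clause.
-/

namespace Vale.Agent.Results.P339.NotTwoGadget

open Vale.Agent.P339

/-- For every `m ≥ 1` and every Max-NTW instance `I`, the 2-to-1 game `gadget m hm I` with
alphabets of sizes `2 (2 m + 3)` and `2 m + 3` has value `1` if `I` is satisfiable, value at most
`1 - ((6 m - 1) / (30 m)) (1 - value I)` always, and value at most `37/40 + 1/(80 m) + ε` whenever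
`value I ≤ 5/8 + ε`. -/
theorem result (m : ℕ) (hm : 0 < m) {n M : ℕ} (I : NTWInstance n M) :
    ((∃ σ, ∀ c, I.Sat σ c) → (gadget m hm I).value = 1) ∧
    (gadget m hm I).value ≤ 1 - ((6 * (m : ℝ) - 1) / (30 * m)) * (1 - I.value) ∧
    ∀ ε : ℝ, 0 ≤ ε → I.value ≤ 5 / 8 + ε →
      (gadget m hm I).value ≤ 37 / 40 + 1 / (80 * m) + ε := by
  refine ⟨completeness m hm I, soundness m hm I, ?_⟩
  intro ε hε hI
  have hs := soundness m hm I
  have hm1 : (1 : ℝ) ≤ m := by exact_mod_cast hm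
  have hm0 : (m : ℝ) ≠ 0 := by positivity
  have hδ0 : (0 : ℝ) ≤ (6 * (m : ℝ) - 1) / (30 * m) := by
    apply div_nonneg <;> nlinarith
  have hδ1 : (6 * (m : ℝ) - 1) / (30 * m) ≤ 1 := by
    rw [div_le_one (by positivity)]
    nlinarith
  have h1 : (6 * (m : ℝ) - 1) / (30 * m) * (3 / 8 - ε) ≤
      (6 * (m : ℝ) - 1) / (30 * m) * (1 - I.value) :=
    mul_le_mul_of_nonneg_left (by linarith) hδ0
  have h2 : (6 * (m : ℝ) - 1) / (30 * m) * (3 / 8) = 3 / 40 - 1 / (80 * m) := by
    field_simp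
    ring
  have h3 : (6 * (m : ℝ) - 1) / (30 * m) * ε ≤ ε := by
    nlinarith
  nlinarith

end Vale.Agent.Results.P339.NotTwoGadget
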